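import Vale.Agent.P014U.L2.Sy

/-! # P014U, block L2: duality for a unipotent plane, group theory (helper94) -/

set_option autoImplicit false
set_option linter.all false

noncomputable section

namespace Vale.Agent.P014U.L2

open Matrix Module
open Vale.Agent.P022K.G2
open Vale.Agent.P014U.G2.Dm (B bc)
open Vale.Agent.P004S (wp wp_add_left wp_add_right wp_sub_left wp_sub_right wp_smul_left
  wp_smul_right wp_zero_left wp_zero_right)

variable [Pp] {G : Type} [Group G] {A : Subgroup G} {a : G →* M2}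
  {b c : G → W} {x y : W} {η β γ : G → ZMod pp} {g h : G}

theorem wl_hm : wl x ∈ Hm A (rh a) (dt a) ↔ ∀ g ∈ A, a g *ᵥ x = x :=
  forall₂_congr fun g _ => ⟨fun e => sub_eq_zero.1 (wp_nd _ fun v => by
    rw [← ai' (a := a) g v, wp_sub_left, aw, sub_eq_zero]; exact (e _).symm), fun e v => by
      rw [wl_apply, wl_apply, ← aw, e]; rfl⟩

/-- the plane is its own dual -/
theorem hm_h0 : rk (Hm A (rh a) (dt a)) = finrank (ZMod pp) (H0 A (rh a) fun _ => 1) := by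
  let φ : W →ₗ[ZMod pp] Dual (ZMod pp) W := LinearMap.mk₂ (ZMod pp) wp wp_add_left
    wp_smul_left wp_add_right wp_smul_right
  have i : Function.Injective φ :=
    (injective_iff_map_eq_zero φ).2 fun v e => wp_nd v fun y => LinearMap.congr_fun e y
  have s := (LinearMap.injective_iff_surjective_of_finrank_eq_finrank
    Subspace.dual_finrank_eq.symm).1 i
  rw [finrank_eq_rank, ← rank_map_eq i]
  refine congrArg rk (Submodule.ext fun f => ⟨fun m => ?_, ?_⟩)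
  · obtain ⟨v, rfl⟩ := s f
    exact ⟨v, fun g n => (wl_hm.1 m g n).trans (one_smul _ _).symm, rfl⟩
  · rintro ⟨v, m, rfl⟩
    exact wl_hm.2 fun g n => (m g n).trans (one_smul _ _)

variable [TopologicalSpace G]

/-- the two properties of a local group -/
structure Lc (A : Subgroup G) : Prop where
  line : ∀ z ∈ Z2 ∅ A (tr G (ZMod pp)), ∀ z' ∈ Z2 ∅ A (tr G (ZMod pp)), z' ∉ B pp A →
    ∃ s : ZMod pp, z - s • z' ∈ B pp A
  nd : ∀ η, Ch A η → (∀ β, Ch A β → cup η β ∈ B pp A) → ∀ g ∈ A, η g = 0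

theorem Lc.perp (L : Lc A) (hη : Ch A η) (hβ : Ch A β)
    (e : ∀ γ, Ch A γ → cup η γ ∈ B pp A → cup β γ ∈ B pp A) : ∃ s, ∀ g ∈ A, β g = s * η g := by
  by_cases k : ∀ γ, Ch A γ → cup η γ ∈ B pp A
  · exact ⟨0, fun g m => by rw [L.nd β hβ (fun γ c => e γ c (k γ c)) g m, zero_mul]⟩
  push Not at k
  obtain ⟨γ₀, c0, n⟩ := k
  obtain ⟨s, hs⟩ := L.line _ (cup_z2 hβ c0) _ (cup_z2 hη c0) n
  refine ⟨s, fun g m => sub_eq_zero.1 (L.nd _ (hβ.sub (hη.smul s)) (fun γ c => ?_) g m)⟩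
  obtain ⟨t, ht⟩ := L.line _ (cup_z2 hη c) _ (cup_z2 hη c0) n
  have k := e _ (c.sub (c0.smul t)) (bc ht fun _ _ _ _ => by
    simp only [cup, Pi.sub_apply, Pi.smul_apply, smul_eq_mul]; ring)
  exact bc (sub_mem (add_mem k (Submodule.smul_mem _ t hs)) (Submodule.smul_mem _ s ht))
    fun _ _ _ _ => by
      simp only [cup, Pi.sub_apply, Pi.add_apply, Pi.smul_apply, smul_eq_mul]; ring

theorem z1_ln (fx : ∀ g ∈ A, a g *ᵥ x = x) (hβ : Ch A β) :
    (fun g => (A : Set G).indicator β g • x) ∈ Z1 ∅ A (rh a) :=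
  Z1.amap hβ.z1 (ln x).toAddMonoidHom fun g hg n => by
    show n • x = a g *ᵥ (n • x)
    rw [mulVec_smul, fx g hg]

theorem b2_ln (fx : ∀ g ∈ A, a g *ᵥ x = x) {z : G → G → ZMod pp} (e : z ∈ B pp A) :
    (fun g h => z g h • x) ∈ B2 ∅ A (rh a) :=
  B2.amap e (ln x).toAddMonoidHom fun g hg n => by
    show n • x = a g *ᵥ (n • x)
    rw [mulVec_smul, fx g hg]

/-- the action is unipotent -/
structure Un (A : Subgroup G) (a : G →* M2) (x y : W) : Prop where
  rp : Rp ∅ A (rh a)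
  le : A ≤ Hs a x
  xy : wp x y = 1

variable (u : Un A a x y)
include u

theorem Un.fx : ∀ g ∈ A, a g *ᵥ x = x := fun _ m => (u.le m).1

theorem Un.ch : Ch A (et a y) := ⟨fun g hg h hh => et_mul u.xy (u.le hg) (u.le hh),
  u.rp.lv.imp fun W hW => ⟨hW.1, fun w hw m => by
    rw [et, show a w *ᵥ y = y from LinearMap.congr_fun (hW.2 w hw m) _, wp_self]⟩⟩

theorem Un.quo (hc : c ∈ Z1 ∅ A (rh a)) : Ch A fun g => wp x (c g) :=
  Z1.ch (Z1.amap hc (wl x).toAddMonoidHom fun g hg n => hs_wx (u.le hg) n)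

theorem Un.lift (hγ : Ch A γ) (e : cup (et a y) γ ∈ B pp A) :
    ∃ b ∈ Z1 ∅ A (rh a), ∀ g ∈ A, wp x (b g) = γ g := by
  obtain ⟨s, ⟨W₁, l1, w1⟩, hs⟩ := e
  obtain ⟨W₂, l2, w2⟩ := hγ.c1
  refine ⟨_, z1_of (c := fun g => -s g • x + γ g • y) u.rp.one ⟨W₁ ⊓ W₂, l1.inf l2,
    fun g hg w hw m => by simp only [w1 g hg w hw m.1, w2 g hg w hw m.2]⟩ fun g hg h hh => ?_,
    fun g hg => ?_⟩
  · have := hs g hg h hh
    simp only [cup, d1_apply, tr_apply] at this
    simp only [d1_apply, mulVecLin_apply, mulVec_add, mulVec_smul, u.fx g hg, hs_ay u.xy (u.le hg),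
      hγ.1 g hg h hh]
    linear_combination (norm := module) this • x
  · rw [Set.indicator_of_mem hg, wp_add_right, wp_smul_right, wp_smul_right, wp_self, u.xy]; ring

theorem Un.ld1 (L : Lc A) (hc : c ∈ Z1 ∅ A (rh a))
    (e : ∀ b ∈ Z1 ∅ A (rh a), cu a c b ∈ B pp A) : c ∈ B1 A (rh a) := by
  have h2 := L.nd _ (u.quo hc) fun β hβ => bc (neg_mem (e _ (z1_ln u.fx hβ))) fun g hg h hh => by
    simp only [cu, cup, Set.indicator_of_mem hh, mulVec_smul, u.fx g hg, wp_smul_right,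
      Pi.neg_apply]
    rw [wp_skew (c g)]
    ring
  have h1 : ∀ g ∈ A, c g = wp (c g) y • x := fun g hg => on_line u.xy (h2 g hg)
  have c1 : Ch A fun g => wp (c g) y := ⟨fun g hg h hh => by
      beta_reduce
      rw [zc hc hg hh, wp_add_left, h1 h hh, mulVec_smul, u.fx g hg],
    hc.2.2.imp fun W hW => ⟨hW.1, fun w hw m => by simp only [hW.2 w hw m, wp_zero_left]⟩⟩
  obtain ⟨s, k⟩ := L.perp u.ch c1 fun γ hγ m => by
    obtain ⟨b, hb, k⟩ := u.lift hγ m
    refine bc (e b hb) fun g hg h hh => ?_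
    rw [cu, h1 g hg, wp_smul_left, hs_wx (u.le hg), k h hh]; rfl
  exact ⟨s • y, fun g m => by
    rw [d0_apply, mulVecLin_apply, hs_av u.xy (u.le m), wp_smul_right, u.xy, mul_one, h1 g m, k g m]⟩

theorem Un.ld2 (L : Lc A) {z : G → G → W} (hz : z ∈ Z2 ∅ A (rh a))
    (e : ∀ x, (∀ g ∈ A, a g *ᵥ x = x) → (fun g h => wp x (z g h)) ∈ B pp A) :
    z ∈ B2 ∅ A (rh a) := by
  by_cases k : ∀ β, Ch A β → cup (et a y) β ∈ B pp A
  · have fy : ∀ g ∈ A, a g *ᵥ y = y := fun g hg => by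
      rw [hs_ay u.xy (u.le hg), L.nd _ u.ch k g hg, zero_smul, zero_add]
    refine B2.congr (sub_mem (b2_ln fy (e x u.fx)) (b2_ln u.fx (e y fy))) (fun g _ h _ => ?_)
      fun _ _ => rfl
    simp only [Pi.sub_apply, wp_skew y, neg_smul, sub_neg_eq_add]
    exact (bas x y u.xy (z g h)).trans (add_comm _ _)
  push Not at k
  obtain ⟨β, hβ, n⟩ := k
  obtain ⟨s, hs, es⟩ := e x u.fx
  have m : d1 (rh a) (fun g => s g • y) ∈ B2 ∅ A (rh a) :=
    ⟨_, C1.amap hs (· • y), fun _ _ _ _ => rfl⟩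
  obtain ⟨z', hz', e'⟩ : ∃ z', z' = z - d1 (rh a) (fun g => s g • y) ∧ z' ∈ Z2 ∅ A (rh a) :=
    ⟨_, rfl, sub_mem hz (B2.z2 u.rp m)⟩
  have h1 : ∀ g ∈ A, ∀ h ∈ A, z' g h = wp (z' g h) y • x := fun g hg h hh => on_line u.xy (by
    have := es g hg h hh
    simp only [d1_apply, tr_apply] at this
    simp only [hz', Pi.sub_apply, d1_apply, mulVecLin_apply, wp_sub_right, wp_add_right,
      hs_wx (u.le hg), wp_smul_right, u.xy, this]
    ring)
  have z1 : (fun g h => wp (z' g h) y) ∈ Z2 ∅ A (tr G (ZMod pp)) :=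
    ⟨fun g hg h hh j hj => by
      have := congrArg (wp · y) (e'.1 g hg h hh j hj)
      simp only [wp_add_left, mulVecLin_apply] at this
      rwa [h1 h hh j hj, mulVec_smul, u.fx g hg, ← h1 h hh j hj] at this,
    C2.amap e'.2 (wp · y)⟩
  have m' : (fun g h => cup (et a y) β g h • x) ∈ B2 ∅ A (rh a) :=
    ⟨fun g => β g • y, C1.amap hβ.c1 (· • y), fun g hg h hh => by
      simp only [cup, d1_apply, mulVecLin_apply, mulVec_smul, hs_ay u.xy (u.le hg), hβ.1 g hg h hh]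
      module⟩
  obtain ⟨t, ht⟩ := L.line _ z1 _ (cup_z2 u.ch hβ) n
  rw [← sub_add_cancel z (d1 (rh a) fun g => s g • y), ← hz']
  exact add_mem (B2.congr (add_mem (b2_ln u.fx ht) (Submodule.smul_mem _ t m'))
    (fun g p h q => (h1 g p h q).trans (by
      simp only [Pi.add_apply, Pi.sub_apply, Pi.smul_apply, smul_eq_mul]; module)) fun _ _ => rfl) m

end Vale.Agent.P014U.L2
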