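import Vale.Agent.P014U.L2.Nd
import Vale.Agent.P014U.Iv.Inv

/-! # P014U, block L2: local duality for a plane over the prime field (helper94) -/

set_option autoImplicit false
set_option linter.all false

noncomputable section

namespace Vale.Agent.P014U.L2

open NumberField Matrix Module Cardinal
open Vale.Agent.P022 (Qb GQ)
open Vale.Agent.P022D.W (dec)
open Vale.Agent.P022E.GW (Ov)
open Vale.Agent.P022K.G2
open Vale.Agent.P014U.G2.Dm (B bc Lo)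
open Vale.Agent.P004S (wp wp_add_left wp_sub_right wp_smul_left wp_smul_right wp_zero_left)

variable [Pp]

section grp

variable {G : Type} [Group G] [TopologicalSpace G] {A : Subgroup G} {a : G →* M2} {x y : W}
  {z₀ : G → G → ZMod pp}

omit [TopologicalSpace G] in
theorem hs_nz : Nz (Bs a x) (Hs a x) := fun g p u q => ⟨by
  obtain ⟨s, e⟩ := (Bs a x).inv_mem p
  rw [am, am, e, mulVec_smul, q.1, ← e, ai'], by rw [dt_mul, dt_mul, q.2, mul_one, dt_inv]⟩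

theorem of_card {R : Finset G} {w : G → G → ZMod pp} (r0 : (R.card : ZMod pp) ≠ 0)
    (m : (R.card : ZMod pp) • z₀ - w ∈ BB a A) (e : w ∈ BB a A) : z₀ ∈ BB a A :=
  (Submodule.smul_mem_iff _ r0).1 (by simpa using add_mem m e)

variable (r : Rp ∅ A (rh a)) (xy : wp x y = 1) (n : ¬ pp ∣ (Hs a x).relIndex A)
  (L : Lc (A ⊓ Hs a x)) (h0 : z₀ ∈ Z2 ∅ A (ch (dt a))) (n0 : z₀ ∉ BB a A)
include r xy n L h0 n0

theorem ln0 {w : G → G → ZMod pp} (hw : w ∈ Z2 ∅ (A ⊓ Hs a x) (ch (dt a)))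
    (k : w ∉ B pp (A ⊓ Hs a x)) : ∃ s : ZMod pp, z₀ - s • w ∈ BB a (A ⊓ Hs a x) :=
  have d : ∀ g ∈ A ⊓ Hs a x, dt a g = 1 := fun _ m => m.2.2
  (L.line _ (Z2.congr (Z2.mono h0 subset_rfl inf_le_left) (fun _ _ _ _ => rfl) fun g m =>
    (ch_tr d g m).symm) _ (Z2.congr hw (fun _ _ _ _ => rfl) fun g m => (ch_tr d g m).symm) k).imp
      fun _ => (bb_iff d).2

theorem ld1g {c : G → W} (hc : c ∈ Z1 ∅ A (rh a))
    (e : ∀ b ∈ Z1 ∅ A (rh a), cu a c b ∈ BB a A) : c ∈ B1 A (rh a) := by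
  have r' := r.mono subset_rfl (inf_le_left (b := Hs a x))
  have hc' := Z1.res hc subset_rfl (inf_le_left (b := Hs a x))
  obtain ⟨R, t, r0⟩ := tv_of n
  obtain ⟨v, hv⟩ := Un.ld1 ⟨r', inf_le_right, xy⟩ L hc' fun b hb => by_contra fun k => by
    obtain ⟨s, hs⟩ := ln0 r xy n L h0 n0 (cu_z2 r' hc' hb) k
    obtain ⟨v, hv, m⟩ := trv t ((le_ker r).up ker_le) r h0 hc (Submodule.smul_mem _ s hb)
      (B2.congr hs (fun g p j _ => by
        simp only [Pi.sub_apply, Pi.smul_apply, cu, Set.indicator_of_mem p, mulVec_smul,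
          wp_smul_right, smul_eq_mul]) fun _ _ => rfl)
    exact n0 (of_card r0 m (e v hv))
  exact tr1 G _ W ∅ A _ _ c r (prj r r n) hc
    ⟨v, fun g m => (Set.indicator_of_mem m c).symm.trans (hv g m)⟩

theorem ld2g {z : G → G → W} (hz : z ∈ Z2 ∅ A (rh a))
    (e : ∀ x, (∀ g ∈ A, a g *ᵥ x = x) → (fun g h => wp x (z g h)) ∈ BB a A) :
    z ∈ B2 ∅ A (rh a) := by
  have r' := r.mono subset_rfl (inf_le_left (b := Hs a x))
  have hz' := Z2.mono hz subset_rfl (inf_le_left (b := Hs a x))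
  have le := (le_ker r).up (ker_le (x := x))
  obtain ⟨R, t, r0⟩ := tv_of n
  refine tr2 G _ W ∅ A _ _ z r (prj r r n) le hz (Un.ld2 ⟨r', inf_le_right, xy⟩ L hz'
    fun v fx => by_contra fun k => ?_)
  obtain ⟨s, hs⟩ := ln0 r xy n L h0 n0 (Z2.amap hz' (wl v).toAddMonoidHom fun g m w =>
    wl_hm.2 fx g m w) k
  have f : ∀ u ∈ A, u ∈ Hs a x → a u *ᵥ (s • v) = s • v := fun u p q => by
    rw [mulVec_smul, fx u ⟨p, q⟩]
  exact n0 (of_card r0 (trx t le r h0 hz f (B2.congr hs (fun g _ j _ => by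
    simp only [Pi.sub_apply, Pi.smul_apply, wp_smul_left, smul_eq_mul]; rfl) fun _ _ => rfl))
    (e _ fun g m => nm_fix' t f m))

/-- the triangular case -/
theorem key (le : A ≤ Bs a x) : rk (Z1 ∅ A (rh a)) + rk (Hm A (ch (t1 a x y)) (dt a)) +
    rk (Hm A (ch (t2 a x y)) (dt a)) ≤ rk (Z1 ∅ A (ch (t1 a x y))) + rk (Z1 ∅ A (ch (t2 a x y))) +
      rk (Hm A (rh a) (dt a)) := by
  have S := ses xy le
  have i1 : (Z1 ∅ A (rh a)).map ((wl x).compLeft G) ≤ Z1 ∅ A (ch (t2 a x y)) := by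
    rintro _ ⟨c, hc, rfl⟩
    exact Z1.amap hc (wl x).toAddMonoidHom S.eqp
  have i2 : rk (Z1 ∅ A (rh a) ⊓ LinearMap.ker ((wl x).compLeft G)) ≤
      rk (Z1 ∅ A (ch (t1 a x y))) := by
    refine (Submodule.rank_mono fun c hc => ?_).trans (rank_map_le ((ln x).compLeft G) _)
    have q : ∀ g, c g = wp (c g) y • x := fun g => on_line xy (congrFun hc.2 g)
    refine ⟨fun g => wp (c g) y, ⟨fun g p j m => ?_, fun g p => by
      simp only [hc.1.2.1 g p, wp_zero_left], hc.1.2.2.imp fun V v => ⟨v.1, fun w p m => by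
        simp only [v.2 w p m, wp_zero_left]⟩⟩, funext fun g => (q g).symm⟩
    beta_reduce
    rw [zc hc.1 p m, wp_add_left, ch_apply, q j, mulVec_smul, wp_smul_left, wp_smul_left, xy,
      mul_one, mul_comm, t1]
  rw [← Cn.rk_map ((wl x).compLeft G) (Z1 ∅ A (rh a)), ← Cx.hm_ker S, add_comm (rk _) (rk (_ ⊓ _)),
    add_assoc, add_assoc, add_assoc]
  refine add_le_add i2 ?_
  by_cases e : ∀ g ∈ A, t1 a x y g = dt a g
  swap
  · rw [Cx.hm_zero e, zero_add]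
    exact add_le_add (Submodule.rank_mono i1) (Submodule.rank_mono inf_le_left)
  refine (add_le_add_right (add_le_add_left Cx.hm_one _) _).trans ?_
  by_cases k : Hm A (rh a) (dt a) ≤ LinearMap.ker (ln x).dualMap
  swap
  · obtain ⟨f, hf, m⟩ := SetLike.not_le_iff_exists.1 k
    exact add_le_add (Submodule.rank_mono i1)
      ((add_comm _ _).trans_le (Cn.rk_succ inf_le_left hf fun q => m q.2))
  obtain ⟨c, hc, ec⟩ := ld2g r xy n L h0 n0 (Z2.amap h0 (ln x).toAddMonoidHom fun g m s =>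
    Eq.trans (by rw [ch_apply, ch_apply, e g m]; rfl) (S.eqi g m s)) fun v fx => b2_of_zero fun g _ j _ =>
      LinearMap.congr_fun (k (wl_hm.2 fx)) _
  rw [← add_assoc]
  refine add_le_add (Cn.rk_succ i1 (z1_of (Cx.rp2 S r).one (C1.amap hc (wl x)) fun g p j q => ?_)
    fun ⟨b, hb, eb⟩ => n0 ⟨_, C1.amap (sub_mem hc (Z1.c1 hb)) (wp · y), fun g p j q => ?_⟩)
    (Submodule.rank_mono inf_le_left)
  · rw [d1_apply, ← S.eqp g p, ← map_sub, ← map_add, ← d1_apply, ← ec g p j q]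
    exact Cn.pi_i S _
  · have u : ∀ g ∈ A, (c - b) g = wp ((c - b) g) y • x := fun g m => on_line xy (by
      rw [Pi.sub_apply, wp_sub_right, sub_eq_zero]
      exact ((congrFun eb g).trans (Set.indicator_of_mem m _)).symm)
    refine smul_x xy ((ec g p j q).trans ?_)
    rw [← sub_zero (d1 _ c g j), ← Cn.d1_z1 hb p q, ← Pi.sub_apply, ← Pi.sub_apply, ← map_sub,
      d1_apply, d1_apply, ch_apply, add_smul, sub_smul, ← u g p, ← u _ (mul_mem p q), mul_comm,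
      mul_smul, ← e g p, ← bs_ax xy (le p), ← mulVec_smul, ← u j q, mulVecLin_apply]

end grp

variable {l : ℕ} {P : Ideal (𝓞 Qb)} {a : GQ →* M2} (o : Ov l P)
include o

open X4S.Aq X4F.Rc Iv in
theorem ex_z0 : ∃ z ∈ Z2 ∅ (dec P) (ch (om pp (ZMod pp))), z ∉ B2 ∅ (dec P) (ch (om pp (ZMod pp))) := by
  obtain ⟨β, hβ⟩ := ex_rt 1 (bs l)
  have h1 : (pp : X4S.Ga.K) ^ 1 * hn 1 ∈ X4S.Ga.O := O_of O_one (hn_mul 1)
  have hf : ∀ g ∈ dec P, ∀ j ∈ dec P, pp * cp 1 (fun g => hn 1 * ps l g) β g j ∈ X4S.Ga.O :=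
    fun g p j q => O_of (O_mul (lev (n := 1) (ps_int o p)) (O_mul (O_cy g)
      ((rt_nat hβ (bs_ne o.1)).int q))) (by simp only [cp]; ring)
  refine ⟨_, toZ (dec_closed P) (ps_z2 o hβ h1) hf, fun ⟨u, hu, e⟩ => half_not ?_⟩
  rw [← hn_one, ← mq_zero, ← iv_ps o hβ h1]
  exact iv_b2 o ⟨_, ofB hf hu e⟩

variable (hd : dt a = om pp (ZMod pp)) (r : Rp ∅ (dec P) (rh a))
include hd r

theorem lcs {A : Subgroup GQ} {x : W} (le : A ≤ dec P) (ge : dec P ⊓ a.ker ≤ A) :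
    Lc (A ⊓ Hs a x) := lc (Lo.sub ⟨_, Gz_open, le_rfl, rfl⟩ (fun g m =>
  ⟨(om_eq_one _).1 (hd ▸ m.2.2), le m.1⟩) ((le_ker r).imp fun _ e => ⟨e.1, fun w p q =>
    ⟨ge ⟨p.2, e.2 w p.2 q⟩, ker_le (e.2 w p.2 q)⟩⟩)) o

/-- **local duality in degree one** -/
theorem ld1 {c : GQ → W} (hc : c ∈ Z1 ∅ (dec P) (rh a))
    (e : ∀ b ∈ Z1 ∅ (dec P) (rh a), cu a c b ∈ BB a (dec P)) : c ∈ B1 (dec P) (rh a) := by
  obtain ⟨x, y, xy, n⟩ := ex_syl a (dec P)
  obtain ⟨z, h0, n0⟩ := ex_z0 o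
  rw [← hd] at h0 n0
  exact ld1g r xy n (lcs o hd r le_rfl inf_le_left) h0 n0 hc e

theorem ld1' {c : GQ → W} (hc : c ∈ Z1 ∅ (dec P) (rh a))
    (e : ∀ b ∈ Z1 ∅ (dec P) (rh a), cu a b c ∈ BB a (dec P)) : c ∈ B1 (dec P) (rh a) :=
  ld1 o hd r hc fun b hb => cu_skew hb hc (e b hb)

/-- **local duality in degree two** -/
theorem ld2 {z : GQ → GQ → W} (hz : z ∈ Z2 ∅ (dec P) (rh a))
    (e : ∀ x, (∀ g ∈ dec P, a g *ᵥ x = x) → (fun g h => wp x (z g h)) ∈ BB a (dec P)) :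
    z ∈ B2 ∅ (dec P) (rh a) := by
  obtain ⟨x, y, xy, n⟩ := ex_syl a (dec P)
  obtain ⟨z, h0, n0⟩ := ex_z0 o
  rw [← hd] at h0 n0
  exact ld2g r xy n (lcs o hd r le_rfl inf_le_left) h0 n0 hz e

open Classical in
theorem up_b (ko : IsOpen (a.ker : Set GQ)) {x y : W} (xy : wp x y = 1)
    (n : ¬ pp ∣ (Hs a x).relIndex (dec P)) : rk (Z1 ∅ (dec P ⊓ Bs a x) (rh a)) ≤
      rk (Hm (dec P ⊓ Bs a x) (rh a) (dt a)) +
        2 * (1 + (if l = pp then (Bs a x).relIndex (dec P) else 0 : ℕ)) := by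
  have c := chn xy n
  have n' : ¬ pp ∣ (Hs a x).relIndex (dec P ⊓ Bs a x) := fun d =>
    c.ih (d.trans (Subgroup.relIndex_dvd_of_le_left _ inf_le_right))
  have r' := r.mono subset_rfl (inf_le_left (b := Bs a x))
  have oH := Subgroup.isOpen_mono (ker_le (x := x)) ko
  have oB := Subgroup.isOpen_mono hs_le oH
  obtain ⟨z, h0, n0⟩ := ex_z0 o
  rw [← hd] at h0 n0
  have k := key r' xy n' (lcs o hd r inf_le_left (c.uh.trans c.hb))
    (Z2.mono h0 subset_rfl inf_le_left) (fun m => n0 (tr2 GQ _ _ ∅ _ (Bs a x) _ z (rp_dt r)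
      (pr0 GQ _ _ ∅ _ _ _ (rp_dt r) (cast_ne (Subgroup.inf_relIndex_left (dec P) _ ▸ c.ib)))
      (le_of_open oB _) h0 m)) inf_le_right
  have e : ∀ θ : GQ → ZMod pp, Rp ∅ (dec P ⊓ Bs a x) (ch θ) → (∀ g ∈ Hs a x, θ g = 1) →
      rk (Z1 ∅ (dec P ⊓ Bs a x) (ch θ)) = rk (Hm (dec P ⊓ Bs a x) (ch θ) (dt a)) +
        (1 + (if l = pp then (Bs a x).relIndex (dec P) else 0 : ℕ)) := fun θ q t => by
    have := lpc pp _ _ _ _ l P (ch θ) oB oH (fun g m => (om_eq_one _).1 (hd ▸ m.2)) o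
    rw [inf_comm, rank_self, mul_one, ← hd] at this
    exact this ⟨inferInstance, q, prj r' q n', hs_nz.mono inf_le_right, le_of_open oH _,
      fun u _ m => ch_tr t u m, (rp_dt r').mu, fun u _ m => m.2⟩
  have S := ses (a := a) xy (inf_le_right (a := dec P))
  rw [e _ (Cx.rp1 S r') fun g => t1_one xy, e _ (Cx.rp2 S r') fun g => t2_one xy] at k
  refine Cx.can (add_lt_aleph0 (Cx.hm_one.trans_lt one_lt_aleph0)
    (Cx.hm_one.trans_lt one_lt_aleph0)) ((add_assoc _ _ _).symm.trans_le (k.trans_eq ?_))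
  ring

/-- the number of local cocycles -/
theorem cnt (ko : IsOpen (a.ker : Set GQ)) :
    Finite (Z1 ∅ (dec P) (rh a)) ∧ Nat.card (Z1 ∅ (dec P) (rh a)) ≤
    Nat.card {v : W // ∀ g ∈ dec P, a g *ᵥ v = v} * pp ^ 2 * (if l = pp then pp ^ 2 else 1) := by
  obtain ⟨x, y, xy, n⟩ := ex_syl a (dec P)
  have c := chn xy n
  have b := up_b o hd r ko xy n
  obtain ⟨X, _, _, ξ, fX, rX, tX, ⟨R, φ, t, j1, j2⟩, s1, s2, s3⟩ := stb pr0 prt pp GQ _ W ∅ _ _ _ _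
    (rh a) inferInstance r c ((Le.self _ _).inf (le_ker r)) fun u m => rh_one.2 m.2
  have lX := lpc pp _ X ⊤ _ l P ξ isOpen_univ ko (fun g m => (om_eq_one _).1 (hd ▸ dt_ker m)) o
  rw [top_inf_eq, Subgroup.relIndex_top_left, ← hd] at lX
  replace lX := lX ⟨fX, rX, ⟨R, φ, ⟨t.mem, fun g m => (t.ex g m).imp fun _ q => ⟨q.1, q.2.2⟩,
    fun s p s' q m => t.un s p s' q ⟨(dec P).mul_mem ((dec P).inv_mem (t.mem s p)) (t.mem s' q), m⟩⟩,
    fun u p q => j1 u p ⟨p, q⟩, j2⟩, fun g _ u m => a.normal_ker.conj_mem u m g, le_ker r,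
    fun u p q => tX u ⟨p, q⟩, (rp_dt r).mu, fun u _ m => dt_ker m⟩
  obtain ⟨T, tv, -⟩ := tv_of c.ib
  have s4 := (s3 GQ Unit T (dec P) (fun _ => 1) (fun s => s.1⁻¹) ⟨fun _ g m => mul_mem m (one_mem _),
    fun g m => ⟨(), g, m, (mul_one g).symm⟩, fun _ _ _ _ _ => rfl⟩
    ⟨fun s g m => mul_mem m.1 (inv_mem (tv.mem _ s.2)), fun g m => (tv.ex _ (inv_mem m)).elim
      fun s q => ⟨⟨s, q.1⟩, _, inv_mem q.2, by simp⟩, fun s s' g m e => Subtype.ext
        (tv.un _ s'.2 _ s.2 (by rwa [e, smul_eq_mul, inv_mul_cancel_right])).symm⟩).1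
  have z0 : ∀ (M : Type) [AddCommGroup M] [Module (ZMod pp) M] (σ : GQ → End (ZMod pp) M)
      (Γ : Subgroup GQ) (ι : Type) (u : ι → GQ) i, σ 1 = 1 → rk (Z1 ∅ (Dv Γ u i) σ) = 0 :=
    fun M _ _ σ Γ ι u i e => Submodule.rank_eq_zero.2 ((Submodule.eq_bot_iff _).2 fun z hz =>
      funext fun g => by
        by_cases q : g = 1
        · rw [q]; exact Z1.one hz e
        · exact hz.2.1 g fun b => q (mul_eq_right.1 b.2))
  simp only [z0 _ _ _ _ _ _ r.one, z0 _ _ _ _ _ _ rX.one, Finset.sum_const_zero, zero_add,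
    Fintype.card_coe, tv.card, Subgroup.inf_relIndex_left, Fintype.card_unique, Nat.cast_one,
    one_mul, rank_fin_fun] at s4
  rw [← s2 _ (rp_dt r).mu] at b
  rw [lX] at s1
  have f : rk (Z1 ∅ (dec P) (rh a)) ≤ rk (Hm (dec P) (rh a) (dt a)) + (if l = pp then 4 else 2 : ℕ) := by
    refine Cx.can (add_lt_aleph0 (Cx.fin_hm (A := dec P) (ρ := ξ) (ω := dt a) fX)
      (Cx.fin_cr fX (if l = pp then 2 else 1)))
      (le_of_eq_of_le ?_ (s1.trans_le ((add_le_add_left b _).trans_eq ?_)))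
    · split_ifs <;> norm_num
    · split_ifs
      · rw [mul_add, mul_comm 2 (Nat.cast _), show (2 : Cardinal) = (2 : ℕ) from rfl, s4]
        push_cast
        ring
      · push_cast
        ring
  rw [hm_h0, ← Nat.cast_add] at f
  have f1 : Module.Finite (ZMod pp) (Z1 ∅ (dec P) (rh a)) :=
    Module.rank_lt_aleph0_iff.1 (f.trans_lt natCast_lt_aleph0)
  refine ⟨Module.finite_of_finite (ZMod pp), ?_⟩
  rw [rk, ← finrank_eq_rank, Nat.cast_le] at f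
  rw [Nat.card_congr (Equiv.subtypeEquivRight (q := (· ∈ H0 (dec P) (rh a) fun _ => 1)) fun v =>
      forall₂_congr fun g _ => by rw [one_smul]; rfl), Module.natCard_eq_pow_finrank (K := ZMod pp),
    Module.natCard_eq_pow_finrank (K := ZMod pp) (V := H0 _ _ _), Nat.card_zmod]
  refine (Nat.pow_le_pow_right pp_pos f).trans_eq ?_
  split_ifs <;> ring

end Vale.Agent.P014U.L2
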