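import Vale.Agent.P014U.L2.Gp

/-! # P014U, block L2: a plane is triangular on a subgroup of index prime to `p` (helper94) -/

set_option autoImplicit false
set_option linter.all false

noncomputable section

namespace Vale.Agent.P014U.L2

open Matrix Module
open Vale.Agent.P022 (GQ)
open Vale.Agent.P022K.G2
open Vale.Agent.P004S (wp wp_add_left wp_add_right wp_sub_left wp_sub_right wp_smul_left
  wp_smul_right wp_zero_left wp_zero_right)

variable [Pp]

section grp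

variable {G : Type} [Group G] {A : Subgroup G} {a : G →* M2} {I : Set G}
  {c : G → W} {x y : W} {η γ : G → ZMod pp} {g h : G}

/-- the elements of determinant one which fix `x` -/
def Hs (a : G →* M2) (x : W) : Subgroup G where
  carrier := {g | a g *ᵥ x = x ∧ dt a g = 1}
  mul_mem' m n := ⟨by rw [am, n.1, m.1], by rw [dt_mul, m.2, n.2, mul_one]⟩
  one_mem' := ⟨a1 x, dt_one⟩
  inv_mem' {g} m := ⟨by simpa only [m.1] using ai (a := a) g x, by
    simpa only [m.2, one_mul] using dt_inv (a := a) g⟩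

theorem on_line (xy : wp x y = 1) {v : W} (e : wp x v = 0) : v = wp v y • x := by
  simpa only [e, zero_smul, add_zero] using bas x y xy v

/-- the elements which fix the line of `x` -/
def Bs (a : G →* M2) (x : W) : Subgroup G where
  carrier := {g | ∃ s : ZMod pp, a g *ᵥ x = s • x}
  mul_mem' := fun ⟨s, m⟩ ⟨t, n⟩ => ⟨t * s, by rw [am, n, mulVec_smul, m, mul_smul]⟩
  one_mem' := ⟨1, by rw [a1, one_smul]⟩
  inv_mem' := fun {g} ⟨s, m⟩ => by
    have e := ai (a := a) g x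
    rw [m, mulVec_smul] at e
    by_cases n : s = 0
    · exact ⟨0, by rw [← e, n, zero_smul, mulVec_zero, zero_smul]⟩
    · exact ⟨s⁻¹, (eq_inv_smul_iff₀ n).2 e⟩

theorem ker_le : a.ker ≤ Hs a x := fun g m => ⟨by rw [show a g = 1 from m, one_mulVec], dt_ker m⟩

theorem hs_le : Hs a x ≤ Bs a x := fun g m => ⟨1, by rw [m.1, one_smul]⟩

/-- **the subgroup of Sylow** -/
theorem ex_syl (a : G →* M2) (A : Subgroup G) :
    ∃ x y : W, wp x y = 1 ∧ ¬ pp ∣ (Hs a x).relIndex A := by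
  let f := a.toHomUnits.comp A.subtype
  obtain ⟨S⟩ : Nonempty (Sylow pp f.range) := inferInstance
  let φ : S →* End (ZMod pp) W := ((Matrix.toLinAlgEquiv' (R := ZMod pp) (n := Fin 2) :
    M2 →* End (ZMod pp) W).comp (Units.coeHom M2)).comp (f.range.subtype.comp S.1.subtype)
  letI : MulAction S W := MulAction.compHom W φ
  obtain ⟨x, fx, n⟩ := S.2.exists_fixed_point_of_prime_dvd_card_of_fixed_point (α := W)
    (by rw [Nat.card_fun, Nat.card_zmod, Nat.card_eq_fintype_card, Fintype.card_fin]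
        exact dvd_pow_self _ two_ne_zero) (a := 0) fun s => map_zero (φ s)
  obtain ⟨y, xy⟩ := ex_y x n.symm
  refine ⟨x, y, xy, fun d => S.not_dvd_index (d.trans ?_)⟩
  rw [← Subgroup.index_comap_of_surjective _ f.rangeRestrict_surjective]
  refine Subgroup.index_dvd_of_le fun g m => ⟨fx ⟨_, m⟩, ?_⟩
  obtain ⟨k, e⟩ := S.2 ⟨_, m⟩
  have e' : a g ^ pp ^ k = 1 := by
    simpa [f] using congrArg (fun s : S => (s.1.1 : M2)) e
  exact (ZMod.pow_card_pow (n := k) (a g).det).symm.trans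
    ((det_pow _ _).symm.trans ((congrArg det e').trans det_one))

/-- the class of the extension -/
def et (a : G →* M2) (y : W) (g : G) : ZMod pp := wp (a g *ᵥ y) y

theorem hs_wx (m : g ∈ Hs a x) (v : W) : wp x (a g *ᵥ v) = wp x v := by
  have := aw (a := a) g x v
  rwa [m.1, m.2, one_mul] at this

theorem hs_ay (xy : wp x y = 1) (m : g ∈ Hs a x) : a g *ᵥ y = et a y g • x + y := by
  rw [bas x y xy (a g *ᵥ y), hs_wx m, xy, one_smul]; rfl

theorem hs_av (xy : wp x y = 1) (m : g ∈ Hs a x) (v : W) :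
    a g *ᵥ v - v = (wp x v * et a y g) • x := by
  conv_lhs => rw [bas x y xy v, mulVec_add, mulVec_smul, mulVec_smul, m.1, hs_ay xy m]
  module

theorem hs_ker (xy : wp x y = 1) (m : g ∈ Hs a x) (e : et a y g = 0) : g ∈ a.ker :=
  Matrix.ext_iff_mulVec.2 fun v => by
    rw [one_mulVec, ← sub_eq_zero, hs_av xy m, e, mul_zero, zero_smul]

theorem et_mul (xy : wp x y = 1) (m : g ∈ Hs a x) (n : h ∈ Hs a x) :
    et a y (g * h) = et a y g + et a y h := by
  rw [et, am, hs_ay xy n, mulVec_add, mulVec_smul, m.1, wp_add_left, wp_smul_left, xy, mul_one,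
    add_comm]
  rfl

theorem smul_x (xy : wp x y = 1) {s t : ZMod pp} (e : s • x = t • x) : s = t := by
  simpa only [wp_smul_left, xy, mul_one] using congrArg (wp · y) e

theorem chn (xy : wp x y = 1) (n : ¬ pp ∣ (Hs a x).relIndex A) :
    Chn pp A (A ⊓ Bs a x) (A ⊓ Hs a x) (A ⊓ a.ker) := by
  have e := Subgroup.relIndex_mul_relIndex (A ⊓ Hs a x) (A ⊓ Bs a x) A
    (inf_le_inf_left _ hs_le) inf_le_left
  rw [Subgroup.inf_relIndex_left A (Hs a x)] at e
  have mm : ∀ g ∈ A, ∀ u ∈ A, g * u * g⁻¹ ∈ A := fun g p u q => mul_mem (mul_mem p q) (inv_mem p)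
  refine ⟨inf_le_inf_left _ ker_le, inf_le_inf_left _ hs_le, inf_le_left,
    fun g p u q => ⟨mm g p u q.1, a.normal_ker.conj_mem u q.2 g⟩,
    fun g p u q => ⟨mm g p.1 u q.1, ?_, ?_⟩, fun d => n (e ▸ d.mul_left _),
    fun d => n (e ▸ d.mul_right _), fun g p nb u q m => ⟨q.1, hs_ker xy q.2 (by_contra fun k => ?_)⟩⟩
  · obtain ⟨s, e⟩ := (Bs a x).inv_mem p.2
    rw [am, am, e, mulVec_smul, q.2.1, ← e, ai']
  · rw [dt_mul, dt_mul, q.2.2, mul_one, dt_inv]
  · obtain ⟨s, e⟩ := m.2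
    have e1 := congrArg (a g⁻¹ *ᵥ ·) e
    simp only [am, ai, mulVec_smul] at e1
    have e2 := hs_wx q.2 (a g⁻¹ *ᵥ x)
    have e3 := hs_av xy q.2 (a g⁻¹ *ᵥ x)
    have k0 : wp x (a g⁻¹ *ᵥ x) ≠ 0 := fun z =>
      nb ⟨p, by simpa using inv_mem (show g⁻¹ ∈ Bs a x from ⟨_, on_line xy z⟩)⟩
    rw [e1, wp_smul_right] at e2
    rw [e1, mul_left_eq_self₀.1 e2 |>.resolve_right k0, one_smul, sub_self, ← zero_smul (ZMod pp) x]
      at e3
    exact mul_ne_zero k0 k (smul_x xy e3).symm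

/-- the character on the line -/
def t1 (a : G →* M2) (x y : W) (g : G) : ZMod pp := wp (a g *ᵥ x) y

/-- the character on the quotient -/
def t2 (a : G →* M2) (x y : W) (g : G) : ZMod pp := wp x (a g *ᵥ y)

/-- the line -/
abbrev ln (x : W) : ZMod pp →ₗ[ZMod pp] W := LinearMap.toSpanSingleton (ZMod pp) W x

theorem bs_ax (xy : wp x y = 1) (m : g ∈ Bs a x) : a g *ᵥ x = t1 a x y g • x := by
  obtain ⟨s, e⟩ := m
  rw [t1, e, wp_smul_left, xy, mul_one]

theorem bs_wx (xy : wp x y = 1) (m : g ∈ Bs a x) (v : W) :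
    wp x (a g *ᵥ v) = t2 a x y g * wp x v := by
  conv_lhs => rw [bas x y xy v, mulVec_add, mulVec_smul, mulVec_smul, bs_ax xy m, wp_add_right,
    wp_smul_right, wp_smul_right, wp_smul_right, wp_self]
  rw [t2]; ring

theorem bs_dt (xy : wp x y = 1) (m : g ∈ Bs a x) : dt a g = t1 a x y g * t2 a x y g := by
  have := aw (a := a) g x y
  rwa [bs_ax xy m, wp_smul_left, xy, mul_one, eq_comm] at this

theorem ses (xy : wp x y = 1) (le : A ≤ Bs a x) :
    Ses A (ch (t1 a x y)) (rh a) (ch (t2 a x y)) (ln x) (wl x) :=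
  ⟨fun s t e => smul_x xy e, fun s => ⟨s • y, by rw [wl_apply, wp_smul_right, xy, mul_one]⟩,
    fun v => ⟨fun e => ⟨_, (on_line xy e).symm⟩, fun ⟨s, e⟩ => by
      rw [← e, wl_apply, LinearMap.toSpanSingleton_apply, wp_smul_right, wp_self, mul_zero]⟩,
    fun g m s => by
      rw [ch_apply, mulVecLin_apply, LinearMap.toSpanSingleton_apply, LinearMap.toSpanSingleton_apply,
        mulVec_smul, bs_ax xy (le m), mul_comm, mul_smul],
    fun g m v => bs_wx xy (le m) v⟩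

theorem t1_one (xy : wp x y = 1) (m : g ∈ Hs a x) : t1 a x y g = 1 := by rw [t1, m.1, xy]

theorem t2_one (xy : wp x y = 1) (m : g ∈ Hs a x) : t2 a x y g = 1 := by rw [t2, hs_wx m, xy]

theorem cast_ne {n : ℕ} (h : ¬ pp ∣ n) : (n : ZMod pp) ≠ 0 := mt (ZMod.natCast_eq_zero_iff _ _).1 h

theorem tv_of {H : Subgroup G} (n : ¬ pp ∣ H.relIndex A) :
    ∃ R, Tv A H R ∧ (R.card : ZMod pp) ≠ 0 :=
  (ex_tv fun e => n (e ▸ dvd_zero _)).imp fun _ t => ⟨t, t.card ▸ cast_ne n⟩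

theorem tri (xy : wp x y = 1) (n : ¬ pp ∣ (Hs a x).relIndex A) :
    Tri (A ⊓ Bs a x) (A ⊓ Hs a x) (dt a) W (rh a) := by
  refine .cons W _ (ZMod pp) (ch (t2 a x y)) (t1 a x y) (ln x) (wl x) (ses xy inf_le_right)
    (fun h m => t1_one xy m.2) (fun e => ?_) (.cons _ _ (Fin 0 → ZMod pp) (fun _ => 1) (t2 a x y)
      LinearMap.id 0 ⟨fun _ _ => id, fun _ => ⟨0, Subsingleton.elim _ _⟩,
        fun s => ⟨fun _ => ⟨s, rfl⟩, fun _ => rfl⟩, fun _ _ _ => rfl,
        fun _ _ _ => Subsingleton.elim _ _⟩ (fun h m => t2_one xy m.2)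
      (fun e => .inl ⟨LinearMap.id, fun g m s => by rw [← e g m]; rfl, fun _ => rfl⟩)
      (.nil _ _ fun _ => Subsingleton.elim _ _))
  by_cases k : ∀ h ∈ A ⊓ Hs a x, et a y h = 0
  swap
  · push Not at k
    obtain ⟨h, m, k⟩ := k
    exact .inr ⟨h, m, (et a y h)⁻¹ • y, by
      rw [mulVecLin_apply, hs_av xy m.2, wp_smul_right, xy, mul_one, inv_mul_cancel₀ k]; rfl⟩
  obtain ⟨R, t, r0⟩ := tv_of (chn xy n).ih
  have fx : ∀ u ∈ A ⊓ Bs a x, u ∈ A ⊓ Hs a x → a u *ᵥ y = y := fun u _ m => by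
    rw [hs_ay xy m.2, k u m, zero_smul, zero_add]
  have e2 : wp x (∑ s ∈ R, a s *ᵥ y) = R.card := by
    rw [← wl_apply, map_sum, Finset.card_eq_sum_ones, Nat.cast_sum]
    refine Finset.sum_congr rfl fun s m => ?_
    have p := t.mem s m
    have q := bs_dt xy p.2
    rw [e s p] at q
    rw [Nat.cast_one]
    exact (left_eq_mul₀ (left_ne_zero_of_mul_eq_one (dt_inv s))).1 q
  refine .inl ⟨-(R.card : ZMod pp)⁻¹ • wl (∑ s ∈ R, a s *ᵥ y), fun g m v => ?_, fun s => ?_⟩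
  · have := aw (a := a) g (∑ s ∈ R, a s *ᵥ y) v
    rw [nm_fix' t fx m] at this
    simp only [LinearMap.smul_apply, wl_apply, mulVecLin_apply, this, smul_eq_mul]
    ring
  · simp only [LinearMap.smul_apply, wl_apply, LinearMap.toSpanSingleton_apply, wp_smul_right,
      wp_skew _ x, e2, smul_eq_mul]
    field_simp

/-- additive functions with nested kernels -/
theorem prop (e1 : ∀ g ∈ A, ∀ h ∈ A, η (g * h) = η g + η h)
    (e2 : ∀ g ∈ A, ∀ h ∈ A, γ (g * h) = γ g + γ h) (k : ∀ g ∈ A, η g = 0 → γ g = 0) :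
    ∃ s, ∀ g ∈ A, γ g = s * η g := by
  by_cases z : ∀ g ∈ A, η g = 0
  · exact ⟨0, fun g m => by rw [k g m (z g m), zero_mul]⟩
  push Not at z
  obtain ⟨h, m, z⟩ := z
  have pw : ∀ θ : G → ZMod pp, (∀ g ∈ A, ∀ h ∈ A, θ (g * h) = θ g + θ h) → ∀ g ∈ A, ∀ n : ℕ,
      θ (g * h ^ n) = θ g + n * θ h := fun θ e g p n => by
    induction n with
    | zero => simp
    | succ n ih => rw [pow_succ, ← mul_assoc, e _ (mul_mem p (pow_mem m n)) h m, ih]; push_cast; ring
  refine ⟨γ h / η h, fun g p => ?_⟩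
  have := k _ (mul_mem p (pow_mem m (-η g / η h).val)) (by
    rw [pw η e1 g p, ZMod.natCast_zmod_val, div_mul_cancel₀ _ z, add_neg_cancel])
  rw [pw γ e2 g p, ZMod.natCast_zmod_val] at this
  linear_combination this

variable [TopologicalSpace G]

theorem prj (r : Rp I A (rh a)) {N : Type} [AddCommGroup N] [Module (ZMod pp) N]
    {ρ : G → End (ZMod pp) N} (r' : Rp I A ρ) (n : ¬ pp ∣ (Hs a x).relIndex A) :
    Prj A (Hs a x) ρ := pr0 G _ N I A _ ρ r' (cast_ne n)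

/-- **a cocycle which is trivial on all cyclic subgroups is trivial** -/
theorem cyc1 (r : Rp I A (rh a)) (hc : c ∈ Z1 I A (rh a))
    (e : ∀ g ∈ A, ∃ v, c g = a g *ᵥ v - v) : c ∈ B1 A (rh a) := by
  obtain ⟨x, y, xy, n⟩ := ex_syl a A
  refine tr1 G _ W I A _ _ c r (prj r r n) hc ?_
  have k : ∀ g ∈ A ⊓ Hs a x, ∃ s, c g = (s * et a y g) • x := fun g m =>
    (e g m.1).elim fun v q => ⟨_, q.trans (hs_av xy m.2 v)⟩
  have k1 : ∀ g ∈ A ⊓ Hs a x, c g = wp (c g) y • x := fun g m => (k g m).elim fun s q =>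
    on_line xy (by rw [q, wp_smul_right, wp_self, mul_zero])
  obtain ⟨s, hs⟩ := prop (A := A ⊓ Hs a x) (γ := fun g => wp (c g) y)
    (fun g p h q => et_mul xy p.2 q.2) (fun g p h q => by
      rw [zc hc p.1 q.1, wp_add_left, k1 h q, mulVec_smul, p.2.1]) fun g m z =>
      (k g m).elim fun s q => by rw [q, z, mul_zero, zero_smul, wp_zero_left]
  exact ⟨s • y, fun g m => by
    rw [d0_apply, mulVecLin_apply, hs_av xy m.2, wp_smul_right, xy, mul_one, k1 g m, hs g m]⟩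

end grp

/-- **the plane satisfies the hypothesis of the global rows** -/
theorem ok {a : GQ →* M2} {x y : W} {T : Finset ℕ} (d : dt a = om pp (ZMod pp)) (xy : wp x y = 1)
    (n : ¬ pp ∣ (Hs a x).relIndex ⊤) (L : Lg pp T ⊤ a.ker) (b : Bg (Hs a x) T) :
    Ok pp T ⊤ a.ker (rh a) :=
  ⟨inferInstance, rp_of L.lv, L, fun _ m => rh_one.2 m, .inr ⟨Bs a x, Hs a x,
    by simpa only [top_inf_eq] using chn xy n, fun g m => (om_eq_one _).1 (d ▸ m.2), b,
    by simpa only [top_inf_eq, d] using tri xy n⟩⟩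

end Vale.Agent.P014U.L2
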