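import Vale.Agent.P014U.Base
import Vale.Agent.P014U.G2.Dim
import Vale.Agent.P004S.Bas

/-! # P014U, block L2: a plane over the prime field, group theory (helper94) -/

set_option autoImplicit false
set_option linter.all false

noncomputable section

namespace Vale.Agent.P014U.L2

open Matrix Module
open Vale.Agent.P022K.G2
open Vale.Agent.P014U.G2.Dm (B bc)
open Vale.Agent.P004S (wp wp_add_left wp_add_right wp_sub_left wp_sub_right wp_smul_left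
  wp_smul_right wp_zero_left wp_zero_right wp_mulVec)

variable [Pp]

abbrev W : Type := Fin 2 → ZMod pp

abbrev M2 : Type := Matrix (Fin 2) (Fin 2) (ZMod pp)

theorem wp_skew (u v : W) : wp u v = -wp v u := by simp only [wp]; ring

theorem wp_self (u : W) : wp u u = 0 := by simp only [wp]; ring

theorem wp_nd (v : W) (h : ∀ y, wp v y = 0) : v = 0 := funext (Fin.forall_fin_two.2
  ⟨by simpa [wp] using h ![0, 1], by simpa [wp] using h ![1, 0]⟩)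

theorem ex_y (x : W) (h : x ≠ 0) : ∃ y, wp x y = 1 := by
  obtain ⟨y, n⟩ := not_forall.1 (mt (wp_nd x) h)
  exact ⟨(wp x y)⁻¹ • y, by rw [wp_smul_right, inv_mul_cancel₀ n]⟩

theorem bas (x y : W) (h : wp x y = 1) (v : W) : v = wp v y • x + wp x v • y :=
  funext (Fin.forall_fin_two.2 ⟨by
    simp only [wp, Pi.add_apply, Pi.smul_apply, smul_eq_mul] at h ⊢
    linear_combination -v 0 * h, by
    simp only [wp, Pi.add_apply, Pi.smul_apply, smul_eq_mul] at h ⊢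
    linear_combination -v 1 * h⟩)

theorem x_ne {x y : W} (h : wp x y = 1) : x ≠ 0 := fun e => by
  rw [e, wp_zero_left] at h
  exact zero_ne_one h

/-- the pairing with `x` -/
def wl (x : W) : W →ₗ[ZMod pp] ZMod pp where
  toFun := wp x
  map_add' := wp_add_right x
  map_smul' c v := wp_smul_right c x v

theorem wl_apply (x v : W) : wl x v = wp x v := rfl

variable {G : Type} [Group G] {A H : Subgroup G} {a : G →* M2} {I : Set G}
  {b c : G → W} {x y : W} {η β γ : G → ZMod pp} {g h : G}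

/-- the representation -/
abbrev rh (a : G →* M2) : G → End (ZMod pp) W := fun g => (a g).mulVecLin

/-- the determinant -/
def dt (a : G →* M2) (g : G) : ZMod pp := (a g).det

/-- the cup product -/
def cu (a : G →* M2) (b c : G → W) : G → G → ZMod pp := fun g h => wp (b g) (a g *ᵥ c h)

theorem am (g h : G) (v : W) : a (g * h) *ᵥ v = a g *ᵥ (a h *ᵥ v) := by
  rw [map_mul, mulVec_mulVec]

theorem a1 (v : W) : a 1 *ᵥ v = v := by rw [map_one, one_mulVec]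

theorem ai (g : G) (v : W) : a g⁻¹ *ᵥ (a g *ᵥ v) = v := by rw [← am, inv_mul_cancel, a1]

theorem ai' (g : G) (v : W) : a g *ᵥ (a g⁻¹ *ᵥ v) = v := by rw [← am, mul_inv_cancel, a1]

theorem aw (g : G) (u v : W) : wp (a g *ᵥ u) (a g *ᵥ v) = dt a g * wp u v := wp_mulVec _ u v

theorem dt_mul (g h : G) : dt a (g * h) = dt a g * dt a h := by rw [dt, map_mul, det_mul]; rfl

theorem dt_one : dt a 1 = 1 := by rw [dt, map_one, det_one]

theorem dt_inv (g : G) : dt a g * dt a g⁻¹ = 1 := by rw [← dt_mul, mul_inv_cancel, dt_one]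

theorem rh_one : rh a g = 1 ↔ a g = 1 :=
  ⟨fun e => Matrix.toLin'.injective (e.trans mulVecLin_one.symm), fun e => by
    rw [rh, e]; exact mulVecLin_one⟩

theorem dt_ker (e : a g = 1) : dt a g = 1 := by rw [dt, e, det_one]

variable [TopologicalSpace G]

/-- coboundaries with values in the determinant -/
abbrev BB (a : G →* M2) (A : Subgroup G) : Submodule (ZMod pp) (G → G → ZMod pp) :=
  B2 ∅ A (ch (dt a))

theorem rp_of (l : Le I A a.ker) : Rp I A (rh a) :=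
  ⟨rh_one.2 (map_one a), fun g _ j _ => by rw [rh, map_mul]; exact mulVecLin_mul _ _,
    l.imp fun _ e => ⟨e.1, fun w m n => rh_one.2 (e.2 w m n)⟩⟩

theorem le_ker (r : Rp I A (rh a)) : Le I A a.ker :=
  r.lv.imp fun _ e => ⟨e.1, fun w m n => rh_one.1 (e.2 w m n)⟩

theorem rp_dt (r : Rp I A (rh a)) : Rp I A (ch (dt a)) :=
  rp_ch ⟨dt_one, fun g _ h _ => dt_mul g h⟩
    ((le_ker r).imp fun _ e => ⟨e.1, fun w m n => dt_ker (e.2 w m n)⟩)

theorem ch_tr (d : ∀ g ∈ A, η g = 1) : ∀ g ∈ A, ch η g = tr G (ZMod pp) g := fun g m => by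
  rw [ch, d g m, one_smul]; rfl

theorem bb_iff (d : ∀ g ∈ A, η g = 1) {z : G → G → ZMod pp} : z ∈ B2 ∅ A (ch η) ↔ z ∈ B pp A :=
  ⟨fun m => B2.congr m (fun _ _ _ _ => rfl) fun g n => (ch_tr d g n).symm,
    fun m => B2.congr m (fun _ _ _ _ => rfl) (ch_tr d)⟩

theorem zc (hc : c ∈ Z1 I A (rh a)) (hg : g ∈ A) (hh : h ∈ A) : c (g * h) = c g + a g *ᵥ c h :=
  hc.1 g hg h hh

theorem cu_z2 (r : Rp ∅ A (rh a)) (hb : b ∈ Z1 ∅ A (rh a)) (hc : c ∈ Z1 ∅ A (rh a)) :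
    cu a b c ∈ Z2 ∅ A (ch (dt a)) := by
  obtain ⟨W₁, l1, w1⟩ := Z1.c1 hb
  obtain ⟨W₂, l2, w2⟩ := Z1.c1 hc
  obtain ⟨W₃, l3, w3⟩ := r.lv
  refine ⟨fun g hg h hh j hj => ?_, W₁ ⊓ W₂ ⊓ W₃, (l1.inf l2).inf l3, fun g hg h hh w hw m => ?_⟩
  · simp only [cu, ch_apply, zc hb hg hh, zc hc hh hj, am g h, mulVec_add, wp_add_left,
      wp_add_right, aw g]
    ring
  · simp only [cu, w1 g hg w hw m.1.1, w2 h hh w hw m.1.2, am g w, and_true]
    rw [show a w *ᵥ c h = c h from LinearMap.congr_fun (w3 w hw m.2) _]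

theorem cu_skew (hb : b ∈ Z1 ∅ A (rh a)) (hc : c ∈ Z1 ∅ A (rh a))
    (e : cu a b c ∈ BB a A) : cu a c b ∈ BB a A := by
  obtain ⟨W₁, l1, w1⟩ := Z1.c1 hb
  obtain ⟨W₂, l2, w2⟩ := Z1.c1 hc
  have : cu a c b - cu a b c ∈ BB a A := ⟨fun g => wp (b g) (c g), ⟨W₁ ⊓ W₂, l1.inf l2,
    fun g hg w hw m => by simp only [w1 g hg w hw m.1, w2 g hg w hw m.2]⟩, fun g hg h hh => by
      simp only [cu, d1_apply, ch_apply, Pi.sub_apply, zc hb hg hh, zc hc hg hh, wp_add_left,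
        wp_add_right, aw g, wp_skew (c g)]
      ring⟩
  simpa using add_mem this e

/-- **the projection formula** -/
theorem trv {R : Finset G} (t : Tv A H R) (le : Le ∅ A H) (r : Rp ∅ A (rh a))
    {z : G → G → ZMod pp} (hz : z ∈ Z2 ∅ A (ch (dt a))) (hc : c ∈ Z1 ∅ A (rh a))
    (hb : b ∈ Z1 ∅ (A ⊓ H) (rh a)) (e : z - cu a c b ∈ BB a (A ⊓ H)) :
    ∃ v ∈ Z1 ∅ A (rh a), (R.card : ZMod pp) • z - cu a c v ∈ BB a A := by
  obtain ⟨W₁, l1, w1⟩ := le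
  obtain ⟨u₀, ⟨W₂, l2, w2⟩, hu⟩ := e
  obtain ⟨τ, t1, t2, -⟩ := t.rep
  obtain ⟨W₃, l3, w3⟩ := hz.2
  obtain ⟨W₄, l4, w4⟩ := hb.2.2
  obtain ⟨W₅, l5, w5⟩ := Z1.c1 hc
  obtain ⟨W₆, l6, w6⟩ := r.lv
  have b0 := Z1.one hb r.one
  let β : G → W := fun y => a (τ y) *ᵥ b ((τ y)⁻¹ * y)
  have b1 : ∀ y ∈ A, ∀ u ∈ A, u ∈ H → β (y * u) = β y + a y *ᵥ b u := fun y hy u hu m => by
    have m1 := t.mem _ (t1 y hy).1
    have m2 := mul_mem (inv_mem m1) hy
    simp only [β, t2 y hy u hu m, ← mul_assoc]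
    rw [zc hb ⟨m2, (t1 y hy).2⟩ ⟨hu, m⟩, mulVec_add, ← am, mul_inv_cancel_left]
  let α : G → ZMod pp := fun y =>
    dt a (τ y) * u₀ ((τ y)⁻¹ * y) - z (τ y) ((τ y)⁻¹ * y) + wp (c (τ y)) (β y)
  have a1 : ∀ y ∈ A, ∀ u ∈ A, u ∈ H →
      α (y * u) = α y + dt a y * u₀ u - z y u + wp (c y) (a y *ᵥ b u) := by
    intro y hy u hu' m
    have m1 := t.mem _ (t1 y hy).1
    have m2 := mul_mem (inv_mem m1) hy
    have k1 := hz.1 _ m1 _ m2 u hu'
    have k2 := hu _ ⟨m2, (t1 y hy).2⟩ u ⟨hu', m⟩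
    have k3 := zc hc m1 m2
    have k4 := am (a := a) (τ y) ((τ y)⁻¹ * y) (b u)
    have k6 := dt_mul (a := a) (τ y) ((τ y)⁻¹ * y)
    simp only [d1_apply, ch_apply, Pi.sub_apply, cu] at k1 k2
    rw [mul_inv_cancel_left] at k1 k3 k4 k6
    have k5 := aw (a := a) (τ y) (c ((τ y)⁻¹ * y)) (a ((τ y)⁻¹ * y) *ᵥ b u)
    rw [← k4] at k5
    simp only [α, t2 y hy u hu' m, b1 y hy u hu' m, ← mul_assoc, wp_add_right]
    rw [k3, wp_add_left, k5, k6]
    linear_combination dt a (τ y) * k2 - k1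
  let e : G → G → ZMod pp := fun g x => z g x - wp (c g) (a g *ᵥ β x) - dt a g * α x + α (g * x)
  have e1 : ∀ g ∈ A, ∀ x ∈ A, ∀ u ∈ A, u ∈ H → e g (x * u) = e g x := by
    intro g hg x hx u hu m
    have k1 := hz.1 g hg x hx u hu
    simp only [ch_apply] at k1
    simp only [e, ← mul_assoc, a1 x hx u hu m, a1 _ (mul_mem hg hx) u hu m, b1 x hx u hu m,
      zc hc hg hx, am g x, mulVec_add, wp_add_left, wp_add_right, aw g, dt_mul g x]
    linear_combination k1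
  let v : G → W := fun g => ∑ s ∈ R, (β (g * s) - a g *ᵥ β s)
  have lv : ∀ g ∈ A, ∀ w ∈ A, w ∈ W₁ → w ∈ W₄ → ∀ s ∈ R, β (g * w * s) = β (g * s) :=
    fun g hg w hw m1 m4 s hs => by
      have ms := t.mem s hs
      have n1 := cj_mem ms hw
      have n2 := w1 _ n1 (l1.cj m1 s)
      rw [show g * w * s = g * s * (s⁻¹ * w * s) by group, b1 _ (mul_mem hg ms) _ n1 n2,
        w4 _ ⟨n1, n2⟩ (l4.cj m4 s), mulVec_zero, add_zero]
  have aw1 : ∀ w ∈ A, w ∈ W₆ → ∀ n, a w *ᵥ n = n := fun w hw m n =>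
    LinearMap.congr_fun (w6 w hw m) n
  refine ⟨_, z1_of (c := v) r.one ⟨W₁ ⊓ W₄ ⊓ W₆, (l1.inf l4).inf l6, fun g hg w hw m =>
    Finset.sum_congr rfl fun s hs => ?_⟩ fun g hg y hy => ?_, fun g => ∑ s ∈ R, e g s,
      ⟨W₁ ⊓ W₂ ⊓ (W₃ ⊓ W₄) ⊓ (W₅ ⊓ W₆), ((l1.inf l2).inf (l3.inf l4)).inf (l5.inf l6),
        fun g hg w hw m => Finset.sum_congr rfl fun s hs => ?_⟩, fun g hg y hy => ?_⟩
  · rw [lv g hg w hw m.1.1 m.1.2 s hs, am g w, aw1 w hw m.2]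
  · rw [d1_apply, map_sum, sub_add_eq_add_sub, sub_eq_zero]
    simp only [v]
    rw [← t.sum_mul hy (fun x => β (g * x) - a g *ᵥ β x) fun x hx u hu m => by
      rw [← mul_assoc, b1 _ (mul_mem hg hx) u hu m, b1 x hx u hu m, mulVec_add, am g x]; abel,
      ← Finset.sum_add_distrib]
    refine Finset.sum_congr rfl fun s _ => ?_
    rw [mulVecLin_apply, mulVec_sub, am g y, mul_assoc]; abel
  · have ms := t.mem s hs
    have m1 := cj_mem ms hw
    have m2 := w1 _ m1 (l1.cj m.1.1.1 s)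
    have q : g * w * s = g * s * (s⁻¹ * w * s) := by group
    have k1 := a1 _ (mul_mem hg ms) 1 (one_mem _) (one_mem _)
    have k2 := w2 1 (one_mem _) _ ⟨m1, m2⟩ (l2.cj m.1.1.2 s)
    have k3 := (w3 _ (mul_mem hg ms) 1 (one_mem _) _ m1 (l3.cj m.1.2.1 s)).2
    rw [one_mul] at k2 k3
    rw [mul_one, b0] at k1
    simp only [e]
    rw [q, a1 _ (mul_mem hg ms) _ m1 m2, k2, k3, w4 _ ⟨m1, m2⟩ (l4.cj m.1.2.2 s), ← k1,
      (w3 g hg s ms w hw m.1.2.1).1, w5 g hg w hw m.2.1, am g w, aw1 w hw m.2.2, dt_mul g w,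
      dt_ker (rh_one.1 (w6 w hw m.2.2)), mul_one]
  · rw [d1_apply, ch_apply, ← t.sum_mul hy (e g) fun x hx u hu m => e1 g hg x hx u hu m,
      Finset.mul_sum, ← Finset.sum_sub_distrib, ← Finset.sum_add_distrib]
    simp only [Pi.sub_apply, Pi.smul_apply, cu, smul_eq_mul, Set.indicator_of_mem hy, v]
    rw [← nsmul_eq_mul, ← Finset.sum_const, ← mulVecLin_apply, map_sum, ← wl_apply, map_sum,
      ← Finset.sum_sub_distrib]
    refine Finset.sum_congr rfl fun s hs => ?_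
    have k1 := hz.1 g hg y hy s (t.mem s hs)
    simp only [ch_apply] at k1
    simp only [e, zc hc hg hy, mul_assoc, mulVecLin_apply, mulVec_sub, wp_sub_right, wp_add_left,
      am g y, aw g, wl_apply, dt_mul g y]
    linear_combination -k1

omit [TopologicalSpace G] in
theorem nm_fix {R : Finset G} (t : Tv A H R) (fx : ∀ u ∈ A, u ∈ H → a u *ᵥ x = x) (hg : g ∈ A) :
    ∑ s ∈ R, a (g * s) *ᵥ x = ∑ s ∈ R, a s *ᵥ x :=
  t.sum_mul hg (fun s => a s *ᵥ x) fun s _ u hu m => by rw [am, fx u hu m]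

omit [TopologicalSpace G] in
theorem nm_fix' {R : Finset G} (t : Tv A H R) (fx : ∀ u ∈ A, u ∈ H → a u *ᵥ x = x) (hg : g ∈ A) :
    a g *ᵥ ∑ s ∈ R, a s *ᵥ x = ∑ s ∈ R, a s *ᵥ x := by
  rw [← mulVecLin_apply, map_sum, ← nm_fix t fx hg]
  exact Finset.sum_congr rfl fun s _ => (am g s x).symm

/-- **the projection formula in degree two** -/
theorem trx {R : Finset G} (t : Tv A H R) (le : Le ∅ A H) (r : Rp ∅ A (rh a))
    {z₀ : G → G → ZMod pp} (h0 : z₀ ∈ Z2 ∅ A (ch (dt a))) {z : G → G → W}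
    (hz : z ∈ Z2 ∅ A (rh a)) (fx : ∀ u ∈ A, u ∈ H → a u *ᵥ x = x)
    (e : (z₀ - fun g h => wp x (z g h)) ∈ BB a (A ⊓ H)) :
    ((R.card : ZMod pp) • z₀ - fun g h => wp (∑ s ∈ R, a s *ᵥ x) (z g h)) ∈ BB a A := by
  obtain ⟨W₁, l1, w1⟩ := le
  obtain ⟨u₀, ⟨W₂, l2, w2⟩, hu⟩ := e
  obtain ⟨τ, t1, t2, -⟩ := t.rep
  obtain ⟨W₃, l3, w3⟩ := hz.2
  obtain ⟨W₄, l4, w4⟩ := h0.2
  obtain ⟨W₆, l6, w6⟩ := r.lv
  have x1 : ∀ y, ∀ u ∈ A, u ∈ H → a (y * u) *ᵥ x = a y *ᵥ x := fun y u hu m => by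
    rw [am, fx u hu m]
  let α : G → ZMod pp := fun y =>
    dt a (τ y) * u₀ ((τ y)⁻¹ * y) - z₀ (τ y) ((τ y)⁻¹ * y) + wp (a y *ᵥ x) (z (τ y) ((τ y)⁻¹ * y))
  have a1 : ∀ y ∈ A, ∀ u ∈ A, u ∈ H →
      α (y * u) = α y + dt a y * u₀ u - z₀ y u + wp (a y *ᵥ x) (z y u) := by
    intro y hy u hu' m
    have m1 := t.mem _ (t1 y hy).1
    have m2 := mul_mem (inv_mem m1) hy
    have k1 := h0.1 _ m1 _ m2 u hu'
    have k2 := hu _ ⟨m2, (t1 y hy).2⟩ u ⟨hu', m⟩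
    have k3 := congrArg (wp (a y *ᵥ x)) (hz.1 _ m1 _ m2 u hu')
    have k4 := x1 (τ y) _ m2 (t1 y hy).2
    have k6 := dt_mul (a := a) (τ y) ((τ y)⁻¹ * y)
    have k5 := aw (a := a) (τ y) x (z ((τ y)⁻¹ * y) u)
    simp only [d1_apply, ch_apply, Pi.sub_apply, wp_add_right, mulVecLin_apply] at k1 k2 k3
    rw [mul_inv_cancel_left] at k1 k3 k4 k6
    rw [← k4] at k5
    simp only [α, t2 y hy u hu' m, x1 y u hu' m, ← mul_assoc]
    rw [k6]
    linear_combination dt a (τ y) * k2 - k1 + k3 - k5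
  let e : G → G → ZMod pp := fun g s =>
    z₀ g s - wp (a (g * s) *ᵥ x) (z g s) - dt a g * α s + α (g * s)
  have e1 : ∀ g ∈ A, ∀ s ∈ A, ∀ u ∈ A, u ∈ H → e g (s * u) = e g s := by
    intro g hg s hs u hu m
    have k1 := h0.1 g hg s hs u hu
    have k2 := congrArg (wp (a (g * s) *ᵥ x)) (hz.1 g hg s hs u hu)
    have k3 := aw (a := a) g (a s *ᵥ x) (z s u)
    simp only [ch_apply, wp_add_right, mulVecLin_apply, ← am] at k1 k2 k3
    simp only [e, ← mul_assoc, a1 s hs u hu m, a1 _ (mul_mem hg hs) u hu m, x1 _ u hu m, dt_mul g s]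
    linear_combination k1 - k2 + k3
  refine ⟨fun g => ∑ s ∈ R, e g s, ⟨W₁ ⊓ W₂ ⊓ (W₃ ⊓ W₄) ⊓ W₆, ((l1.inf l2).inf (l3.inf l4)).inf l6,
    fun g hg w hw m => Finset.sum_congr rfl fun s hs => ?_⟩, fun g hg y hy => ?_⟩
  · have ms := t.mem s hs
    have m1 := cj_mem ms hw
    have m2 := w1 _ m1 (l1.cj m.1.1.1 s)
    have q : g * w * s = g * s * (s⁻¹ * w * s) := by group
    have k1 := a1 _ (mul_mem hg ms) 1 (one_mem _) (one_mem _)
    have k2 := w2 1 (one_mem _) _ ⟨m1, m2⟩ (l2.cj m.1.1.2 s)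
    have k3 := (w3 _ (mul_mem hg ms) 1 (one_mem _) _ m1 (l3.cj m.1.2.1 s)).2
    have k4 := (w4 _ (mul_mem hg ms) 1 (one_mem _) _ m1 (l4.cj m.1.2.2 s)).2
    rw [one_mul] at k2 k3 k4
    rw [mul_one] at k1
    simp only [e]
    rw [q, a1 _ (mul_mem hg ms) _ m1 m2, k2, k3, k4, ← k1, x1 _ _ m1 m2,
      (w3 g hg s ms w hw m.1.2.1).1, (w4 g hg s ms w hw m.1.2.2).1, dt_mul g w,
      dt_ker (rh_one.1 (w6 w hw m.2)), mul_one]
  · rw [d1_apply, ch_apply, ← t.sum_mul hy (e g) fun x hx u hu m => e1 g hg x hx u hu m,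
      Finset.mul_sum, ← Finset.sum_sub_distrib, ← Finset.sum_add_distrib]
    simp only [Pi.sub_apply, Pi.smul_apply, smul_eq_mul]
    rw [← nsmul_eq_mul, ← Finset.sum_const, ← nm_fix t fx (mul_mem hg hy), wp_skew, ← wl_apply,
      map_sum, sub_neg_eq_add, ← Finset.sum_add_distrib]
    refine Finset.sum_congr rfl fun s hs => ?_
    have k1 := h0.1 g hg y hy s (t.mem s hs)
    have k2 := congrArg (wp (a (g * (y * s)) *ᵥ x)) (hz.1 g hg y hy s (t.mem s hs))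
    have k3 := aw (a := a) g (a (y * s) *ᵥ x) (z y s)
    simp only [ch_apply, wp_add_right, mulVecLin_apply, ← am] at k1 k2 k3
    simp only [e, mul_assoc, wl_apply, dt_mul g y, wp_skew (z g y)]
    linear_combination -k1 + k2 - k3

end Vale.Agent.P014U.L2
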