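import Vale.Agent.P014U.L2.Un
import Vale.Agent.P014U.G2.Lib
import Vale.Agent.P004F.Pr.Loc

/-! # P014U, block L2: the local symbol is not degenerate (helper94) -/

set_option autoImplicit false
set_option linter.all false

noncomputable section

namespace Vale.Agent.P014U.L2

open NumberField Module IsDedekindDomain Polynomial
open Vale.Agent.P022 Vale.Agent.P022.C Vale.Agent.P022.H443 Vale.Agent.P022.H916
open Vale.Agent.P022D.W
open Vale.Agent.P022E.GW (Ov)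
open Vale.Agent.P022K.G2
open Vale.Agent.P022K.G2.Dm (ex_fld)
open Vale.Agent.P014U.G2.Dm (B bc Lo glob kch)
open Vale.Agent.P014U.G2.Gy
open P011.ArP P022K.GW IntermediateField

variable [Pp] {l : ℕ} {P : Ideal (𝓞 Qb)} {A : Subgroup GQ}

theorem ex_poly {K : Type} [Field K] [NumberField K] [Algebra K Qb] {r m : Qb}
    (h : ∀ g ∈ GK (algebraMap K Qb), g r = r → g m = m) : ∃ f : K[X], aeval r f = m := by
  haveI := isGalois_Qb
  have : m ∈ (K⟮r⟯).restrictScalars ℚ := by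
    rw [← InfiniteGalois.fixedField_fixingSubgroup ((K⟮r⟯).restrictScalars ℚ), mem_fixedField_iff]
    intro g hg
    have e := (mem_fixingSubgroup_iff _ _).1 hg
    exact h g (fun x => e _ (K⟮r⟯.algebraMap_mem x)) (e _ (mem_adjoin_simple_self K r))
  refine Algebra.adjoin_mem_exists_aeval K r ?_
  rwa [← adjoin_simple_toSubalgebra_of_isAlgebraic
    ((Algebra.IsAlgebraic.isAlgebraic (R := ℚ) r).tower_top K)]

/-- **the local symbol is not degenerate** -/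
theorem nd (h : Lo pp P A) (hP : Ov l P) {η : GQ → ZMod pp} (a : Ch A η)
    (e : ∀ β, Ch A β → cup η β ∈ B pp A) : ∀ g ∈ A, η g = 0 := by
  obtain ⟨K, _, _, j, hz, rfl⟩ := h.fld
  by_contra! n
  obtain ⟨s, hs, s0⟩ := n
  obtain ⟨σ, s1, s2⟩ := ex_one a hs s0
  have k : Kr (GK j ⊓ dec P) a.ker η σ := ⟨a, fun _ => Iff.rfl, s1, s2⟩
  obtain ⟨ζ, hζ⟩ := fixed j (x := zt pp) fun g => mem_Gz'.1 (hz g.2)
  let M : P011.ArP.Mu pp K :=
    ⟨ζ, (hζ ▸ zt_prim pp).of_map_of_injective j.injective, Fact.out, pp_ne_two⟩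
  have k3 := fun x : Kˣ => kum3 pp K M j l P (blw j hP) hP rfl x (ka pp (j x))
    ⟨rt pp (j x), rt_pow _ _, fun g hg => by rw [show j M.ζ = zt pp from hζ]; exact ka_spec (hg x)⟩
  have hA : GK j ⊓ dec P ≤ Gz pp := inf_le_left.trans hz
  obtain ⟨x, x0, hx⟩ := glob j hz hP a
  have c := kch j hz x0 le_rfl
  obtain ⟨L, _, _, i, hi⟩ := ex_fld (c.le_ker.isOpen (isOpen_GK j))
  have hL : a.ker = GK i ⊓ dec P := Subgroup.ext fun g => by
    rw [k.mem, hi]
    exact ⟨fun m => ⟨⟨m.1.1, hx g m.1 ▸ m.2⟩, m.1.2⟩,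
      fun m => ⟨⟨m.1.1, m.2⟩, (hx g ⟨m.1.1, m.2⟩).trans m.1.2⟩⟩
  have i1 := local_index M (blw j hP) (Units.mk0 x x0) fun e =>
    one_ne_zero (s2.symm.trans ((hx σ s1).trans ((k3 _).2 e σ s1)))
  refine one_lt.ne' (i1.symm.trans (Subgroup.index_eq_one.2 (eq_top_iff.2 fun t _ => ?_)))
  have t0 := (map_ne_zero j).2 t.ne_zero
  obtain ⟨y, y1, y2⟩ := k.exa hA t0 (fun g hg => hg.1 t) (e _ (kch j hz t.ne_zero inf_le_left))
  have y0 : y ≠ 0 := fun e => t0 (y2.symm.trans (Finset.prod_eq_zero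
    (Finset.mem_range.2 pp_pos) (by rw [e, map_zero])))
  obtain ⟨m, m0, hm⟩ := glob i (hi ▸ fun g m => hz m.1) hP (hL ▸ ka_ch (k.le.trans hA) y0 y1)
  have m1 := (map_ne_zero i).2 m0
  have f : ∀ g ∈ a.ker, g (i m) = i m := fun g q => (hL ▸ q : g ∈ GK i ⊓ dec P).1 m
  obtain ⟨w, w1, w2⟩ := (((kum pp _ (k.le.trans hA)).2 (y / i m) (div_ne_zero y0 m1)
    fun g q => by rw [map_div₀, y1 g q, f g q]).2).1 fun g q => by
      rw [ka_div y0 m1 (hA (k.le q)) (y1 g q) (f g q), hm g (hL ▸ q), sub_self]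
  letI := j.toAlgebra
  obtain ⟨F, hF⟩ := ex_poly (K := K) (r := rt pp (j x)) (m := i m) fun g hg q =>
    (hi ▸ (⟨hg, E_inj (rt_ne ((map_ne_zero j).2 x0)) ((E_ka (hg x)).symm.trans
      (q.trans (by rw [E_zero, one_mul])))⟩ : g ∈ c.ker) : g ∈ GK i) m
  have ac : ∀ g ∈ GK j, g (aeval (rt pp (j x)) F) = aeval (g (rt pp (j x))) F := fun g hg => by
    rw [aeval_def, aeval_def]
    refine (hom_eval₂ F _ (g : Qb →+* Qb) _).trans ?_
    congr 1
    exact RingHom.ext hg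
  have e1 : j ((M.nf F).eval x) = Nm pp σ (i m) :=
    (M.aeval_nf F (x := rt pp (j x)) (a := x) (rt_pow _ _)).trans
      (Finset.prod_congr rfl fun n _ => by
        have q := pow_mem s1 n
        rw [← hF, ac _ q.1, ka_spec (q.1 x), ← hx _ q, a.pow s1, s2, mul_one, pw_nat, ← hζ, ← map_pow]
        rfl)
  have n0 : (M.nf F).eval x ≠ 0 := (map_ne_zero j).1 (e1 ▸ nm_ne m1)
  rw [← mul_div_cancel (Units.mk0 _ n0) t]
  refine Subgroup.mul_mem_sup ⟨F, rfl⟩ ((k3 _).1 fun g hg => ?_)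
  have e2 : j (t / Units.mk0 _ n0 : Kˣ) = Nm pp σ w ^ pp := by
    rw [Units.val_div_eq_div_val, map_div₀, Units.val_mk0, e1, ← y2]
    unfold G2.Gy.Nm
    rw [← Finset.prod_div_distrib, ← Finset.prod_pow]
    exact Finset.prod_congr rfl fun n _ => by rw [← map_pow, w2, map_div₀]
  rw [e2, ka_pp (nm_ne (root_ne (div_ne_zero y0 m1) w2)) (hA hg) (k.nm_fix w1 hg)]

theorem lc (h : Lo pp P A) (o : Ov l P) : Lc A := ⟨fun z hz z' hz' n => by
    obtain ⟨H, hH, g, rfl⟩ := h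
    have := (G2.dimt2 (ZMod pp) H l P (fun _ => 1) hH o
      (rp_ch ⟨rfl, fun _ _ _ _ => (mul_one _).symm⟩ ⟨⊤, Lv.top _, fun _ _ _ => rfl⟩)).1
    rw [show ch (fun _ : GQ => (1 : ZMod pp)) = tr GQ _ from funext fun _ => one_smul _ _] at this
    obtain ⟨f, f1, f2⟩ := P004F.Pr.ex_fun this
    exact ⟨f z / f z', f2 _ (sub_mem hz (Submodule.smul_mem _ _ hz')) (by
      rw [map_sub, map_smul, smul_eq_mul, div_mul_cancel₀ _ (mt (f2 z' hz') n), sub_self])⟩,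
  fun _ hη e => nd h o hη e⟩

end Vale.Agent.P014U.L2
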